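import Vale.Agent.P004G.H503.Fin3

/-!
# P004: analytic ranks in the families of quadratic twists of all elliptic curves
`y² = x³ + a x` and `y² = x³ + b` over `ℚ`
-/

namespace Vale.Agent.Results.P004.CMTwists

open Filter Topology

/-- `D` is a fundamental discriminant, `D ≠ 1` -/
def IsFundDisc (D : ℤ) : Prop :=
  D ≠ 1 ∧ ((D % 4 = 1 ∧ Squarefree D) ∨
    ∃ d : ℤ, D = 4 * d ∧ (d % 4 = 2 ∨ d % 4 = 3) ∧ Squarefree d)

open scoped Classical in
/-- the fundamental discriminants `D ≠ 1` with `|D| ≤ X` -/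
noncomputable def Family (X : ℕ) : Finset ℤ := (Finset.Icc (-(X : ℤ)) X).filter IsFundDisc

/-- the twist `D y² = x³ + a x + b`, written as `y² = x³ + a D² x + b D³` -/
noncomputable def twist (a b D : ℤ) : WeierstrassCurve ℚ :=
  ⟨0, 0, 0, ((a * D ^ 2 : ℤ) : ℚ), ((b * D ^ 3 : ℤ) : ℚ)⟩

/-- `L` is entire, and for `Re s > 3/2` it is the sum of the Dirichlet series of Mathlib's
`L`-function of the twist -/
def IsLFun (a b D : ℤ) (L : ℂ → ℂ) : Prop :=
  Differentiable ℂ L ∧ ∀ s : ℂ, 3 / 2 < s.re →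
    LSeriesHasSum (fun n => ((twist a b D).LFunction n : ℂ)) s (L s)

open scoped Classical in
/-- the analytic rank of the twist: the order of vanishing at `s = 1` of its entire
`L`-function -/
noncomputable def rank (a b D : ℤ) : ℕ :=
  if h : ∃ L, IsLFun a b D L then analyticOrderNatAt h.choose 1 else 0

open scoped Classical in
/-- the number of `D` in `Family X` with the property `P` -/
noncomputable def count (P : ℤ → Prop) (X : ℕ) : ℝ := (((Family X).filter P).card : ℝ)

open scoped Classical in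
/-- the sum of `(rank)^k` over the `D` in `Family X` with the property `P` -/
noncomputable def moment (a b : ℤ) (k : ℕ) (P : ℤ → Prop) (X : ℕ) : ℝ :=
  ∑ D ∈ (Family X).filter P, (rank a b D : ℝ) ^ k

/-- the proportion of the `D` with the property `P` tends to `1/2` -/
def Half (P : ℤ → Prop) : Prop :=
  Tendsto (fun X : ℕ => count P X / (Family X).card) atTop (𝓝 (1 / 2))

/-- continuation of the `L`-functions, bound for the number of twists of large rank, and bounded
moments of the rank -/
def Bounds (a b : ℤ) : Prop :=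
  (∀ D : ℤ, IsFundDisc D → ∃ L, IsLFun a b D L ∧ (∀ L', IsLFun a b D L' → L' = L) ∧
    analyticOrderAt L 1 = (rank a b D : ℕ∞)) ∧
  (∃ c : ℝ, 0 < c ∧ ∀ B : ℕ, ∃ C : ℝ, 0 < C ∧ ∀ X : ℕ, 3 ≤ X → ∀ z : ℝ, 0 ≤ z →
    count (fun D => z ≤ (rank a b D : ℝ)) X ≤
      C * ((Family X).card : ℝ) * (Real.exp (-c * √z) + Real.log X ^ (-(B : ℝ)))) ∧
  (∀ k : ℕ, ∃ C : ℝ, 0 < C ∧ ∀ X : ℕ, 3 ≤ X →
    ∑ D ∈ Family X, (rank a b D : ℝ) ^ k ≤ C * ((Family X).card : ℝ))

/-- the rank is odd for one half of the twists -/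
def Parity (a b : ℤ) : Prop := Half (fun D => Odd (rank a b D))

/-- the density form of Goldfeld's conjecture -/
def DensityForm (a b : ℤ) : Prop := ∀ j : ℕ, j ≤ 1 → Half (fun D => rank a b D = j)

/-- the mean form of Goldfeld's conjecture (`k = 1`), and its analogue for the `k`-th moment -/
def MeanForm (a b : ℤ) (k : ℕ) : Prop :=
  Tendsto (fun X : ℕ => (∑ D ∈ Family X, (rank a b D : ℝ) ^ k) / (Family X).card) atTop
    (𝓝 (1 / 2))

/-- equivalence of density statements and mean value statements -/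
def Forms (a b : ℤ) (k : ℕ) : Prop :=
  (Half (fun D => rank a b D = 0) ↔
    Tendsto (fun X => moment a b k (fun D => Even (rank a b D)) X / (Family X).card) atTop
      (𝓝 0)) ∧
  (Half (fun D => rank a b D = 1) ↔
    Tendsto (fun X => moment a b k (fun D => Odd (rank a b D)) X / (Family X).card) atTop
      (𝓝 (1 / 2))) ∧
  (DensityForm a b ↔ MeanForm a b k)

/-- Hasse's bound and the functional equations of the twists: with `a_n` the coefficients of
Mathlib's `L`-function of the twist and `f y = ∑ a_n e^{-2π n y}`, `f (1 / (N y)) = κ N y² f y` -/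
structure HasFE (a b : ℤ) : Prop where
  hasse : ∀ D : ℤ, D = 1 ∨ IsFundDisc D → ∀ p : ℕ, p.Prime →
    ((twist a b D).LFunction p) ^ 2 ≤ 4 * p
  fe : ∃ C : ℝ, 1 ≤ C ∧ ∀ D : ℤ, D = 1 ∨ IsFundDisc D → ∃ N κ : ℝ, 0 < N ∧
    (κ = 1 ∨ κ = -1) ∧ (D : ℝ) ^ 2 / C ≤ N ∧ N ≤ C * (D : ℝ) ^ 2 ∧ ∀ y : ℝ, 0 < y →
      ∑' n : ℕ, ((twist a b D).LFunction n : ℝ) * Real.exp (-2 * Real.pi * n * (1 / (N * y))) =
        κ * N * y ^ 2 * ∑' n : ℕ, ((twist a b D).LFunction n : ℝ) *
          Real.exp (-2 * Real.pi * n * y)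

/-! ### comparison with the definitions used in the proofs -/

theorem count_eq (P : ℤ → Prop) [DecidablePred P] (X : ℕ) :
    count P X = (((_root_.P004.Fam X).filter P).card : ℝ) := by
  have h : @Finset.filter ℤ P (fun D => Classical.propDecidable (P D)) (Family X) =
      (_root_.P004.Fam X).filter P :=
    Finset.filter_congr_decidable _ _ _
  exact congrArg (fun s : Finset ℤ => (s.card : ℝ)) h

theorem moment_eq (a b : ℤ) (k : ℕ) (P : ℤ → Prop) [DecidablePred P] (X : ℕ) :
    moment a b k P X = ∑ D ∈ (_root_.P004.Fam X).filter P, (_root_.P004G.aRk a b D : ℝ) ^ k := by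
  have h : @Finset.filter ℤ P (fun D => Classical.propDecidable (P D)) (Family X) =
      (_root_.P004.Fam X).filter P :=
    Finset.filter_congr_decidable _ _ _
  exact congrArg (fun s : Finset ℤ => ∑ D ∈ s, (rank a b D : ℝ) ^ k) h

theorem family_eq (X : ℕ) : Family X = _root_.P004.Fam X := rfl

theorem rank_eq (a b D : ℤ) : rank a b D = _root_.P004G.aRk a b D := rfl

theorem bounds_of {a b : ℤ} (h : _root_.P004G.TailMom a b) : Bounds a b := by
  classical
  obtain ⟨h1, ⟨c, hc, h2⟩, h3⟩ := h
  refine ⟨h1, ⟨c, hc, fun B => ?_⟩, h3⟩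
  obtain ⟨C, hC, h⟩ := h2 B
  refine ⟨C, hC, fun X hX z hz => ?_⟩
  exact (le_of_eq (@count_eq (fun D => z ≤ (rank a b D : ℝ)) _ X)).trans (h X hX z hz)

theorem parity_iff {a b : ℤ} : Parity a b ↔ _root_.P004G.OddHalf a b := by
  classical
  unfold Parity Half _root_.P004G.OddHalf
  simp only [count_eq, family_eq, rank_eq]

theorem density_iff {a b : ℤ} : DensityForm a b ↔ _root_.P004G.DensForm a b := by
  classical
  unfold DensityForm Half _root_.P004G.DensForm
  simp only [count_eq, family_eq, rank_eq]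

theorem forms_of {a b : ℤ} {k : ℕ} (h : _root_.P004G.Equivs a b k) : Forms a b k := by
  classical
  obtain ⟨h1, h2, h3⟩ := h
  refine ⟨?_, ?_, density_iff.trans h3⟩
  · unfold Half
    simp only [count_eq, moment_eq, family_eq, rank_eq]
    convert h1
  · unfold Half
    simp only [count_eq, moment_eq, family_eq, rank_eq]
    convert h2

theorem modl_of {a b : ℤ} (h : HasFE a b) : _root_.P004G.Modl a b := ⟨h.hasse, h.fe⟩

theorem hasFE_of {a b : ℤ} (h : _root_.P004G.Modl a b) : HasFE a b := ⟨h.hasse, h.fe⟩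

/-! ### the theorem -/

/-- **Analytic ranks of the quadratic twists `E^(D) : D y² = x³ + a x + b`, `D ≠ 1` a fundamental
discriminant.** The `L`-functions are Mathlib's `WeierstrassCurve.LFunction`.

First part (unconditional): for every curve `y² = x³ + a x` (`a ≠ 0`) and every curve
`y² = x³ + b` (`b ≠ 0`), i.e. for every elliptic curve over `ℚ` with `j = 1728` or `j = 0`:

1. the `L`-function of `E^(D)` has a unique entire continuation, with order of vanishing
   `rank a b D` at `s = 1`; for some `c > 0` and every `B`, at most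
   `C_B #Family X (exp(-c √z) + (log X)^(-B))` of the `D` in `Family X` have rank `≥ z`, for all
   `z ≥ 0`, `X ≥ 3`; every moment is bounded: `∑_{D ∈ Family X} rank^k ≤ C_k #Family X`;
2. the rank is odd for one half of the `D`;
3. for every `k ≥ 1`: the density of rank `0` is `1/2` iff the normalised sum of `rank^k` over the
   `D` of even rank tends to `0`; the density of rank `1` is `1/2` iff the normalised sum over the
   `D` of odd rank tends to `1/2`; both densities are `1/2` iff the mean of `rank^k` tends to `1/2`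
   (for `k = 1` this is the equivalence of the two forms of Goldfeld's conjecture for `E`).

Second part: 1 for every elliptic curve `y² = x³ + a x + b` for which Hasse's bound and the
functional equations of the twists hold; 3 if moreover 2 holds; and these hypotheses hold for the
curves of the first part. -/
theorem result :
    (∀ a b : ℤ, (a ≠ 0 ∧ b = 0) ∨ (a = 0 ∧ b ≠ 0) →
      Bounds a b ∧ Parity a b ∧ ∀ k : ℕ, 1 ≤ k → Forms a b k) ∧
    (∀ a b : ℤ, 4 * a ^ 3 + 27 * b ^ 2 ≠ 0 → HasFE a b →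
      Bounds a b ∧ (DensityForm a b → ∀ k : ℕ, 1 ≤ k → MeanForm a b k) ∧
        (Parity a b → ∀ k : ℕ, 1 ≤ k → Forms a b k)) ∧
    (∀ a b : ℤ, (a ≠ 0 ∧ b = 0) ∨ (a = 0 ∧ b ≠ 0) → HasFE a b) := by
  refine ⟨fun a b h => ?_, fun a b hd hM => ?_, fun a b h => hasFE_of (_root_.P004G.CMc.modl h)⟩
  · obtain ⟨h1, h2, h3⟩ := _root_.P004G.CMc.main h
    exact ⟨bounds_of h1, parity_iff.2 h2, fun k hk => forms_of (h3 k hk)⟩
  · obtain ⟨h1, h2, h3⟩ := _root_.P004G.concl_all hd (modl_of hM)
    exact ⟨bounds_of h1, fun h => h2 (density_iff.1 h),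
      fun h k hk => forms_of (h3 (parity_iff.1 h) k hk)⟩

end Vale.Agent.Results.P004.CMTwists
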