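import Vale.Agent.P004E.H503.Mods

/-!
# P004: a positive proportion of the quadratic twists of every elliptic curve `y² = x³ + a x` over
`ℚ` have analytic rank exactly one
-/

namespace Vale.Agent.Results.P004.RankOne

/-- `D` is a fundamental discriminant, `D ≠ 1` -/
def IsFundDisc (D : ℤ) : Prop :=
  D ≠ 1 ∧ ((D % 4 = 1 ∧ Squarefree D) ∨
    ∃ d : ℤ, D = 4 * d ∧ (d % 4 = 2 ∨ d % 4 = 3) ∧ Squarefree d)

open scoped Classical in
/-- the fundamental discriminants `D ≠ 1` with `|D| ≤ X` -/
noncomputable def Family (X : ℕ) : Finset ℤ := (Finset.Icc (-(X : ℤ)) X).filter IsFundDisc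

/-- the twist `D y² = x³ + a x`, written as `y² = x³ + a D² x` -/
noncomputable def twist (a D : ℤ) : WeierstrassCurve ℚ := ⟨0, 0, 0, ((a * D ^ 2 : ℤ) : ℚ), 0⟩

/-- `L` is entire, and for `Re s > 3/2` it is the sum of the Dirichlet series of Mathlib's
`L`-function of the twist -/
def IsLFun (a D : ℤ) (L : ℂ → ℂ) : Prop :=
  Differentiable ℂ L ∧ ∀ s : ℂ, 3 / 2 < s.re →
    LSeriesHasSum (fun n => ((twist a D).LFunction n : ℂ)) s (L s)

open scoped Classical in
/-- the analytic rank of the twist: the order of vanishing at `s = 1` of its entire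
`L`-function -/
noncomputable def rank (a D : ℤ) : ℕ :=
  if h : ∃ L, IsLFun a D L then analyticOrderNatAt h.choose 1 else 0

open scoped Classical in
/-- the number of `D` in `Family X` for which the twist has analytic rank exactly one -/
noncomputable def countOne (a : ℤ) (X : ℕ) : ℕ := ((Family X).filter (fun D => rank a D = 1)).card

/-! ### comparison with the definitions used in the proofs -/

theorem twist_eq (a D : ℤ) :
    (⟨0, 0, 0, ((a * D ^ 2 : ℤ) : ℚ), ((0 * D ^ 3 : ℤ) : ℚ)⟩ : WeierstrassCurve ℚ) =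
      twist a D := by
  unfold twist
  congr 1
  simp

theorem isL_iff (a D : ℤ) : _root_.P004G.IsLT a 0 D = IsLFun a D := by
  funext L
  unfold _root_.P004G.IsLT IsLFun
  rw [← twist_eq]
  rfl

theorem rank_eq (a D : ℤ) : _root_.P004G.aRk a 0 D = rank a D := by
  unfold _root_.P004G.aRk rank
  rw [isL_iff]

theorem family_eq (X : ℕ) : _root_.P004.Fam X = Family X := rfl

theorem countOne_eq (a : ℤ) (X : ℕ) [DecidablePred fun D => _root_.P004G.aRk a 0 D = 1] :
    ((_root_.P004.Fam X).filter (fun D => _root_.P004G.aRk a 0 D = 1)).card = countOne a X := by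
  classical
  have h : (_root_.P004.Fam X).filter (fun D => _root_.P004G.aRk a 0 D = 1) =
      (Family X).filter (fun D => rank a D = 1) := by
    apply Finset.ext
    intro D
    rw [Finset.mem_filter, Finset.mem_filter, rank_eq, family_eq]
  unfold countOne
  rw [h]

theorem card_family_le (X : ℕ) : ((Family X).card : ℝ) ≤ 2 * X + 1 := by
  classical
  unfold Family
  have h := Finset.card_filter_le (Finset.Icc (-(X : ℤ)) X) IsFundDisc
  have h2 : (Finset.Icc (-(X : ℤ)) X).card = 2 * X + 1 := by
    rw [Int.card_Icc]; omega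
  rw [h2] at h
  exact_mod_cast h

/-! ### the theorem -/

/-- **Analytic rank one for a positive proportion of the quadratic twists of every elliptic curve
over `ℚ` with `j = 1728`** (unconditional). Let `a ≠ 0` be an integer and `E : y² = x³ + a x`.

1. For every fundamental discriminant `D ≠ 1`, the `L`-function of `E^(D) : D y² = x³ + a x`
   (Mathlib's `WeierstrassCurve.LFunction`) has a unique entire continuation, and `rank a D` is
   its order of vanishing at `s = 1`.
2. There are `c > 0` and `X₀` such that for all `X ≥ X₀` at least `c #Family X` of the `D` in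
   `Family X` satisfy `rank a D = 1`. -/
theorem result : ∀ a : ℤ, a ≠ 0 →
    (∀ D : ℤ, IsFundDisc D → ∃ L, IsLFun a D L ∧ (∀ L', IsLFun a D L' → L' = L) ∧
      analyticOrderAt L 1 = (rank a D : ℕ∞)) ∧
    ∃ c : ℝ, 0 < c ∧ ∃ X₀ : ℕ, ∀ X : ℕ, X₀ ≤ X →
      c * ((Family X).card : ℝ) ≤ (countOne a X : ℝ) := by
  classical
  intro a ha
  refine ⟨fun D hD => ?_, ?_⟩
  · have h := (_root_.P004G.CMc.main (a := a) (b := 0) (Or.inl ⟨ha, rfl⟩)).1.1 D hD
    rw [isL_iff, rank_eq] at h
    exact h
  · obtain ⟨c, hc, X₀, h⟩ := _root_.P004E.Fin.rank_one (A := -a) (neg_ne_zero.2 ha)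
    rw [neg_neg] at h
    refine ⟨c / 3, by positivity, max X₀ 1, fun X hX => ?_⟩
    have h6 := h X ((le_max_left _ _).trans hX)
    have h5 := countOne_eq a X
    rw [h5] at h6
    have h7 := card_family_le X
    have h8 : (1 : ℝ) ≤ X := by exact_mod_cast (le_max_right _ _).trans hX
    refine le_trans ?_ h6
    calc c / 3 * ((Family X).card : ℝ) ≤ c / 3 * (2 * X + 1) := by gcongr
      _ ≤ c * X := by nlinarith

end Vale.Agent.Results.P004.RankOne
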