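import Vale.Agent.P004H.H404.Final
import Vale.Agent.P004H.H666.Iso3
import Vale.Agent.P004G.H503.Fin3

/-!
# P004: analytic ranks in the families of quadratic twists of all elliptic curves over `ℚ` which are
isogenous to a quadratic twist of `X_0(11)`
-/

namespace Vale.Agent.Results.P004.XZeroEleven

open Filter Topology

/-- `D` is a fundamental discriminant, `D ≠ 1` -/
def IsFundDisc (D : ℤ) : Prop :=
  D ≠ 1 ∧ ((D % 4 = 1 ∧ Squarefree D) ∨
    ∃ d : ℤ, D = 4 * d ∧ (d % 4 = 2 ∨ d % 4 = 3) ∧ Squarefree d)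

open scoped Classical in
/-- the fundamental discriminants `D ≠ 1` with `|D| ≤ X` -/
noncomputable def Family (X : ℕ) : Finset ℤ := (Finset.Icc (-(X : ℤ)) X).filter IsFundDisc

/-- the twist `D y² = x³ + a x + b`, written as `y² = x³ + a D² x + b D³` -/
noncomputable def twist (a b D : ℤ) : WeierstrassCurve ℚ :=
  ⟨0, 0, 0, ((a * D ^ 2 : ℤ) : ℚ), ((b * D ^ 3 : ℤ) : ℚ)⟩

/-- `L` is entire, and for `Re s > 3/2` it is the sum of the Dirichlet series of Mathlib's
`L`-function of the twist -/
def IsLFun (a b D : ℤ) (L : ℂ → ℂ) : Prop :=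
  Differentiable ℂ L ∧ ∀ s : ℂ, 3 / 2 < s.re →
    LSeriesHasSum (fun n => ((twist a b D).LFunction n : ℂ)) s (L s)

open scoped Classical in
/-- the analytic rank of the twist: the order of vanishing at `s = 1` of its entire
`L`-function -/
noncomputable def rank (a b D : ℤ) : ℕ :=
  if h : ∃ L, IsLFun a b D L then analyticOrderNatAt h.choose 1 else 0

open scoped Classical in
/-- the number of `D` in `Family X` with the property `P` -/
noncomputable def count (P : ℤ → Prop) (X : ℕ) : ℝ := (((Family X).filter P).card : ℝ)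

open scoped Classical in
/-- the sum of `(rank)^k` over the `D` in `Family X` with the property `P` -/
noncomputable def moment (a b : ℤ) (k : ℕ) (P : ℤ → Prop) (X : ℕ) : ℝ :=
  ∑ D ∈ (Family X).filter P, (rank a b D : ℝ) ^ k

/-- the proportion of the `D` with the property `P` tends to `1/2` -/
def Half (P : ℤ → Prop) : Prop :=
  Tendsto (fun X : ℕ => count P X / (Family X).card) atTop (𝓝 (1 / 2))

/-- continuation of the `L`-functions, bound for the number of twists of large rank, and bounded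
moments of the rank -/
def Bounds (a b : ℤ) : Prop :=
  (∀ D : ℤ, IsFundDisc D → ∃ L, IsLFun a b D L ∧ (∀ L', IsLFun a b D L' → L' = L) ∧
    analyticOrderAt L 1 = (rank a b D : ℕ∞)) ∧
  (∃ c : ℝ, 0 < c ∧ ∀ B : ℕ, ∃ C : ℝ, 0 < C ∧ ∀ X : ℕ, 3 ≤ X → ∀ z : ℝ, 0 ≤ z →
    count (fun D => z ≤ (rank a b D : ℝ)) X ≤
      C * ((Family X).card : ℝ) * (Real.exp (-c * √z) + Real.log X ^ (-(B : ℝ)))) ∧
  (∀ k : ℕ, ∃ C : ℝ, 0 < C ∧ ∀ X : ℕ, 3 ≤ X →
    ∑ D ∈ Family X, (rank a b D : ℝ) ^ k ≤ C * ((Family X).card : ℝ))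

/-- the rank is odd for one half of the twists -/
def Parity (a b : ℤ) : Prop := Half (fun D => Odd (rank a b D))

/-- the density form of Goldfeld's conjecture -/
def DensityForm (a b : ℤ) : Prop := ∀ j : ℕ, j ≤ 1 → Half (fun D => rank a b D = j)

/-- the mean form of Goldfeld's conjecture (`k = 1`), and its analogue for the `k`-th moment -/
def MeanForm (a b : ℤ) (k : ℕ) : Prop :=
  Tendsto (fun X : ℕ => (∑ D ∈ Family X, (rank a b D : ℝ) ^ k) / (Family X).card) atTop
    (𝓝 (1 / 2))

/-- equivalence of density statements and mean value statements -/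
def Forms (a b : ℤ) (k : ℕ) : Prop :=
  (Half (fun D => rank a b D = 0) ↔
    Tendsto (fun X => moment a b k (fun D => Even (rank a b D)) X / (Family X).card) atTop
      (𝓝 0)) ∧
  (Half (fun D => rank a b D = 1) ↔
    Tendsto (fun X => moment a b k (fun D => Odd (rank a b D)) X / (Family X).card) atTop
      (𝓝 (1 / 2))) ∧
  (DensityForm a b ↔ MeanForm a b k)

/-- Hasse's bound and the functional equations of the twists: with `a_n` the coefficients of
Mathlib's `L`-function of the twist and `f y = ∑ a_n e^{-2π n y}`, `f (1 / (N y)) = κ N y² f y` -/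
structure HasFE (a b : ℤ) : Prop where
  hasse : ∀ D : ℤ, D = 1 ∨ IsFundDisc D → ∀ p : ℕ, p.Prime →
    ((twist a b D).LFunction p) ^ 2 ≤ 4 * p
  fe : ∃ C : ℝ, 1 ≤ C ∧ ∀ D : ℤ, D = 1 ∨ IsFundDisc D → ∃ N κ : ℝ, 0 < N ∧
    (κ = 1 ∨ κ = -1) ∧ (D : ℝ) ^ 2 / C ≤ N ∧ N ≤ C * (D : ℝ) ^ 2 ∧ ∀ y : ℝ, 0 < y →
      ∑' n : ℕ, ((twist a b D).LFunction n : ℝ) * Real.exp (-2 * Real.pi * n * (1 / (N * y))) =
        κ * N * y ^ 2 * ∑' n : ℕ, ((twist a b D).LFunction n : ℝ) *
          Real.exp (-2 * Real.pi * n * y)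

/-! ### comparison with the definitions used in the proofs -/

theorem count_eq (P : ℤ → Prop) [DecidablePred P] (X : ℕ) :
    count P X = (((_root_.P004.Fam X).filter P).card : ℝ) := by
  have h : @Finset.filter ℤ P (fun D => Classical.propDecidable (P D)) (Family X) =
      (_root_.P004.Fam X).filter P :=
    Finset.filter_congr_decidable _ _ _
  exact congrArg (fun s : Finset ℤ => (s.card : ℝ)) h

theorem moment_eq (a b : ℤ) (k : ℕ) (P : ℤ → Prop) [DecidablePred P] (X : ℕ) :
    moment a b k P X = ∑ D ∈ (_root_.P004.Fam X).filter P, (_root_.P004G.aRk a b D : ℝ) ^ k := by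
  have h : @Finset.filter ℤ P (fun D => Classical.propDecidable (P D)) (Family X) =
      (_root_.P004.Fam X).filter P :=
    Finset.filter_congr_decidable _ _ _
  exact congrArg (fun s : Finset ℤ => ∑ D ∈ s, (rank a b D : ℝ) ^ k) h

theorem family_eq (X : ℕ) : Family X = _root_.P004.Fam X := rfl

theorem rank_eq (a b D : ℤ) : rank a b D = _root_.P004G.aRk a b D := rfl

theorem bounds_of {a b : ℤ} (h : _root_.P004G.TailMom a b) : Bounds a b := by
  classical
  obtain ⟨h1, ⟨c, hc, h2⟩, h3⟩ := h
  refine ⟨h1, ⟨c, hc, fun B => ?_⟩, h3⟩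
  obtain ⟨C, hC, h⟩ := h2 B
  refine ⟨C, hC, fun X hX z hz => ?_⟩
  exact (le_of_eq (@count_eq (fun D => z ≤ (rank a b D : ℝ)) _ X)).trans (h X hX z hz)

theorem parity_iff {a b : ℤ} : Parity a b ↔ _root_.P004G.OddHalf a b := by
  classical
  unfold Parity Half _root_.P004G.OddHalf
  simp only [count_eq, family_eq, rank_eq]

theorem density_iff {a b : ℤ} : DensityForm a b ↔ _root_.P004G.DensForm a b := by
  classical
  unfold DensityForm Half _root_.P004G.DensForm
  simp only [count_eq, family_eq, rank_eq]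

theorem forms_of {a b : ℤ} {k : ℕ} (h : _root_.P004G.Equivs a b k) : Forms a b k := by
  classical
  obtain ⟨h1, h2, h3⟩ := h
  refine ⟨?_, ?_, density_iff.trans h3⟩
  · unfold Half
    simp only [count_eq, moment_eq, family_eq, rank_eq]
    convert h1
  · unfold Half
    simp only [count_eq, moment_eq, family_eq, rank_eq]
    convert h2

theorem modl_of {a b : ℤ} (h : HasFE a b) : _root_.P004G.Modl a b := ⟨h.hasse, h.fe⟩

theorem hasFE_of {a b : ℤ} (h : _root_.P004G.Modl a b) : HasFE a b := ⟨h.hasse, h.fe⟩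

/-! ### the theorem -/

/-- the `j`-invariant of `y² = x³ + a x + b` -/
def jInv (a b : ℤ) : ℚ := 6912 * (a : ℚ) ^ 3 / (4 * (a : ℚ) ^ 3 + 27 * (b : ℚ) ^ 2)

/-- the `j`-invariant is that of a curve of conductor `11` -/
def Eleven (a b : ℤ) : Prop :=
  jInv a b = -122023936 / 161051 ∨ jInv a b = -52893159101157376 / 11 ∨ jInv a b = -4096 / 11

/-- the rank is exactly one for a positive proportion of the twists -/
def RankOne (a b : ℤ) : Prop :=
  ∃ c : ℝ, 0 < c ∧ ∃ X₀ : ℕ, ∀ X : ℕ, X₀ ≤ X →
    c * ((Family X).card : ℝ) ≤ count (fun D => rank a b D = 1) X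

theorem jj_of {a b : ℤ} (hd : 4 * a ^ 3 + 27 * b ^ 2 ≠ 0) (h : Eleven a b) :
    _root_.Vale.Agent.P004H.H666.JJ a b := by
  have hq : (4 * (a : ℚ) ^ 3 + 27 * (b : ℚ) ^ 2) ≠ 0 := by exact_mod_cast hd
  unfold Eleven jInv at h
  rcases h with h | h | h
  · left
    unfold _root_.Vale.Agent.P004H.H641.J11
    rw [div_eq_div_iff hq (by norm_num)] at h
    have h' : 6912 * a ^ 3 * 161051 = -122023936 * (4 * a ^ 3 + 27 * b ^ 2) := by exact_mod_cast h
    linarith
  · right; left
    unfold _root_.Vale.Agent.P004H.H666.J112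
    rw [div_eq_div_iff hq (by norm_num)] at h
    have h' : 6912 * a ^ 3 * 11 = -52893159101157376 * (4 * a ^ 3 + 27 * b ^ 2) := by
      exact_mod_cast h
    linarith
  · right; right
    unfold _root_.Vale.Agent.P004H.H666.J113
    rw [div_eq_div_iff hq (by norm_num)] at h
    have h' : 6912 * a ^ 3 * 11 = -4096 * (4 * a ^ 3 + 27 * b ^ 2) := by exact_mod_cast h
    linarith

theorem card_family_le (X : ℕ) : ((Family X).card : ℝ) ≤ 2 * X + 1 := by
  classical
  unfold Family
  have h := Finset.card_filter_le (Finset.Icc (-(X : ℤ)) X) IsFundDisc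
  have h2 : (Finset.Icc (-(X : ℤ)) X).card = 2 * X + 1 := by
    rw [Int.card_Icc]; omega
  rw [h2] at h
  exact_mod_cast h

theorem count_congr {P Q : ℤ → Prop} {X : ℕ} (h : ∀ D ∈ Family X, (P D ↔ Q D)) :
    count P X = count Q X := by
  classical
  unfold count
  exact congrArg (fun s : Finset ℤ => (s.card : ℝ)) (Finset.filter_congr h)

theorem rankOne_of {a b e : ℤ} (he : e ≠ 0)
    (hS : _root_.Vale.Agent.P004H.H641.SameL a b (-13392 * e ^ 2) (-1080432 * e ^ 3)) :
    RankOne a b := by
  classical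
  obtain ⟨c, hc, X₀, h⟩ := _root_.P004H.rank_oneF he
  refine ⟨c / 3, by positivity, max X₀ 1, fun X hX => ?_⟩
  have h5 : count (fun D => rank a b D = 1) X =
      count (fun D => _root_.P004G.aRk (-13392 * e ^ 2) (-1080432 * e ^ 3) D = 1) X := by
    refine count_congr fun D hD => ?_
    have hf : IsFundDisc D := by
      unfold Family at hD
      exact (Finset.mem_filter.1 hD).2
    have h1 : rank a b D = _root_.P004G.aRk (-13392 * e ^ 2) (-1080432 * e ^ 3) D :=
      hS.aRk (_root_.Vale.Agent.P004H.H641.Fund1_ne (Or.inr hf))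
    rw [h1]
  have h6 : c * (X : ℝ) ≤
      count (fun D => _root_.P004G.aRk (-13392 * e ^ 2) (-1080432 * e ^ 3) D = 1) X := by
    refine (h X ((le_max_left _ _).trans hX)).trans (le_of_eq ?_)
    exact (count_eq (fun D => _root_.P004G.aRk (-13392 * e ^ 2) (-1080432 * e ^ 3) D = 1) X).symm
  have h7 := card_family_le X
  have h8 : (1 : ℝ) ≤ X := by exact_mod_cast (le_max_right _ _).trans hX
  rw [h5]
  refine le_trans ?_ h6
  have h9 : c / 3 * ((Family X).card : ℝ) ≤ c / 3 * (2 * X + 1) :=
    mul_le_mul_of_nonneg_left h7 (by positivity)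
  nlinarith

/-- **Analytic ranks of the quadratic twists of the elliptic curves isogenous to a twist of
`X_0(11)`** (unconditional). Let `E : y² = x³ + a x + b` be an elliptic curve, `a, b ∈ ℤ`, with
`j(E)` the `j`-invariant of one of the three curves of conductor `11`. The `L`-functions are
Mathlib's `WeierstrassCurve.LFunction`.

1. Hasse's bound, and the functional equation for the twists `E^(D)`, for `D = 1` and every
   fundamental discriminant `D`;
2. the `L`-function of `E^(D)` has a unique entire continuation, with order of vanishing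
   `rank a b D` at `s = 1`; the number of `D ∈ Family X` with rank `≥ z` is
   `≤ C_B #Family X (exp(-c √z) + (log X)^(-B))`, and all moments of the rank are bounded;
3. the rank is odd for one half of the `D`;
4. for every `k ≥ 1` : the density of rank `0` is `1/2` iff the normalised sum of `rank^k` over the
   `D` of even rank tends to `0`, the density of rank `1` is `1/2` iff the normalised sum over the
   `D` of odd rank tends to `1/2`, and both densities are `1/2` iff the mean of `rank^k` tends to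
   `1/2`;
5. the rank is exactly one for a positive proportion of the `D`. -/
theorem result : ∀ a b : ℤ, 4 * a ^ 3 + 27 * b ^ 2 ≠ 0 → Eleven a b →
    HasFE a b ∧ Bounds a b ∧ Parity a b ∧ (∀ k : ℕ, 1 ≤ k → Forms a b k) ∧ RankOne a b := by
  intro a b hd hj
  have hJ := jj_of hd hj
  obtain ⟨hM, hO⟩ := _root_.Vale.Agent.P004H.H666.main_JJF _root_.P004G.allMLG
    _root_.P004G.pfLent _root_.P004G.pfLparity hd hJ
  obtain ⟨h1, h2, h3⟩ := _root_.P004G.concl_all hd hM
  obtain ⟨e, he, hS⟩ := _root_.Vale.Agent.P004H.H666.sameL_JJF hd hJ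
  exact ⟨hasFE_of hM, bounds_of h1, parity_iff.2 hO, fun k hk => forms_of (h3 hO k hk),
    rankOne_of he hS⟩

end Vale.Agent.Results.P004.XZeroEleven
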